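import Vale.Agent.P188.MainA
import Vale.Agent.P188.Rig

/-! Groups quasi-isometric to virtually polycyclic groups are virtually polycyclic. -/

namespace Vale.Agent.Results.P188.Recognition

open Vale.Agent.P188

theorem result (G H : Type*) [Group G] [Group H] (A : Finset G) (B : Finset H)
    (hA : Subgroup.closure (A : Set G) = ⊤) (hB : Subgroup.closure (B : Set H) = ⊤)
    (hG : VirtPoly G) (h : ∃ (K C : ℝ) (F : H → G), IsQI (wd B) (wd A) K C F) : VirtPoly H :=
  let ⟨_, _, _, h⟩ := h
  main_of_rigid rigid hA hB hG h

end Vale.Agent.Results.P188.Recognition
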